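import Vale.Agent.P281Z.Vb.Main
import Vale.Agent.P281Z.Ri.Base
import Vale.Agent.P281Z.Ri.Grf
import Vale.Agent.P281Z.Gr.Main

/-!
# P281Z, block VBF: the statement from the resolution theorems
-/

namespace Vale.Agent.P281Z.Vb

theorem vbf (hR : Rs.RES) (hL : Nt.RESL) (hN : GEN) : Gt.VBF :=
  vbf_of hR hL (Ri.base_of hR) Gr.gr1 (Gr.gr_of hN) hN (Ri.fub_of hR hN)

end Vale.Agent.P281Z.Vb
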