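import Vale.Agent.P281Z.Ri.Tools
import Vale.Agent.P281Z.Gr.Sk
import Vale.Agent.P281Z.Md.Ext
import Vale.Agent.P281Z.Nt.Bc
import Vale.Agent.P281Z.Rs.Clo

/-!
# P281Z, block VBF: relative linear systems of rank one
-/

open scoped Manifold ContDiff Topology
open Set Filter Function
open Vale.Agent.P272.K Vale.Agent.P285.H281.FD
open Vale.Agent.P277Z (Hol hol_const at_chart)
open Vale.Agent.P277Z.Slc (Ind LEq Snc)
open Vale.Agent.P277.HD (pull)

noncomputable section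

namespace Vale.Agent.P281Z.Vb

open Ri

variable {n p : ℕ} {V : Mf n} {Y : Mf p} {f : V.X → Y.X}

theorem gen_sbm (hG : GEN) (hf : HolM n p f) : ∃ Q, Thin p Q ∧ ∀ x, f x ∉ Q → Sbm n p f x :=
  let ⟨Q, h1, h2⟩ := hG n p V Y f Empty Empty.elim hf (Nt.snc_empty V _)
  ⟨Q, h1, fun _ hx => (h2 _ hx).sbm hf (Nt.snc_empty V _) rfl⟩

theorem van {ι X α : Type} [Fintype α] {t : ι → X → ℂ} {a : α → ℂ} {s : α → ι → X → ℂ} {b : ι}
    {x : X} (h : (t - ∑ j, a j • s j) b x = 0) : t b x = ∑ j, a j * s j b x := by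
  simpa [sub_eq_zero] using h

/-- holomorphic functions descend along a fibration -/
theorem desc [ConnectedSpace V.X] (hf : Fibn n p f) {Q : Set Y.X} (hQ : Thin p Q)
    (hs : ∀ x, f x ∉ Q → Sbm n p f x) {O : Set Y.X} (hO : IsOpen O) {a : V.X → ℂ}
    (ha : ∀ x, f x ∈ O → Hol n a x) :
    ∃ b, (∀ y ∈ O, Hol p b y) ∧ ∀ x, f x ∈ O → b (f x) = a x := by
  choose σ hσ using hf.surj
  have hc := hf.hol.cont
  have h1 : ∀ x, f x ∈ O → f x ∉ Q → a (σ (f x)) = a x := fun x k k' => by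
    obtain ⟨d, hd⟩ := Nat.exists_eq_add_of_le (hs x k').le
    obtain ⟨F, i, hi⟩ := fib_emb (y := f x) hd hf.hol fun z e => hs z (e ▸ k')
    have := hi.conn.2 (hf.conn_all (f x))
    obtain ⟨z, hz⟩ := hi.ex (y := x) rfl
    obtain ⟨z', hz'⟩ := hi.ex (y := σ (f x)) (hσ _)
    simpa only [hz, hz'] using (lcst d F (fun z => a (i z)) fun z =>
      hi.hol.hol (ha _ (by rwa [hi.fib]))).apply_eq_of_preconnectedSpace z' z
  have key : ∀ y ∈ O, ∃ b, Hol p b y ∧ ∀ᶠ y' in 𝓝 y, ∀ x, f x = y' → b y' = a x := fun y hy => by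
    obtain ⟨K, k1, k2, k3⟩ := exists_compact_subset hO hy
    obtain ⟨C, hC⟩ := (k1.isClosed.preimage hc).isCompact.exists_bound_of_continuousOn (f := a)
      fun x hx => (ha x (k3 hx)).cont.continuousWithinAt
    obtain ⟨H, b1, b2⟩ := Md.riem (h := fun y => a (σ y)) (Md.gn_of_thin hQ y)
      ((hO.eventually_mem hy).mono fun z c1 c2 => by
        have c3 : f (σ z) ∈ O := by rwa [hσ]
        have c4 : f (σ z) ∉ Q := by rwa [hσ]
        rw [← hσ z]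
        refine (hs _ c4).hol_desc (hf.hol.at _) ((ha _ c3).congr ?_)
        filter_upwards [hc.continuousAt.eventually (hO.mem_nhds c3),
          hc.continuousAt.eventually (hQ.closed.isOpen_compl.mem_nhds c4)] with w d1 d2
          using (h1 w d1 d2).symm)
      ⟨C, mem_of_superset (mem_interior_iff_mem_nhds.1 k2) fun z c _ =>
        hC _ (show f (σ z) ∈ K by rwa [hσ])⟩
    refine ⟨H, b1, ?_⟩
    filter_upwards [b1.near, b2.eventually_nhds, hO.mem_nhds hy] with z c1 c2 c3 x e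
    subst e
    exact tendsto_nhds_unique_of_frequently_eq (hf.hol.hol c1).cont (ha x c3).cont
      ((((hQ.pre_surj hf.hol hf.surj).freq x).and_eventually (hc.continuousAt.eventually
        (c2.and (hO.eventually_mem c3)))).mono fun w d => (d.2.1 d.1).trans (h1 w d.2.2 d.1))
  refine ⟨fun y => a (σ y), fun y hy => ?_, fun x hx => ?_⟩
  · obtain ⟨b, b1, b2⟩ := key y hy
    exact b1.congr (b2.mono fun z c => c _ (hσ z))
  · obtain ⟨b, -, b2⟩ := key _ hx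
    exact (b2.self_of_nhds _ (hσ _)).symm.trans (b2.self_of_nhds x rfl)

/-- the ideal of a relative linear system which has rank one on the general fibres -/
theorem flat (hB : BASE) (hG : Gr.GR1) (hN : GEN) (hF : FUB) [hV : ConnectedSpace V.X]
    (hf : Fibn n p f) (C : Cvr Y) {L : Bd V.X} (hL : IsLB n L)
    {D : ∀ α, Fin (C.k α) → L.ι → V.X → ℂ} (hD : ∀ α j, Gr.SecOn n L (f ⁻¹' C.U α) (D α j))
    (hc : Cmp C f univ L D) {S : Set Y.X} {Z : Set V.X} (hS : Thin p S) (hZ : Thin n Z)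
    (h1 : ∀ α, ∀ y ∈ C.U α, y ∉ S → ∃ P : Fin (C.k α) → ℂ, ∀ x ∉ Z, f x = y → ∀ b, x ∈ L.U b →
      ∃ θ, ∀ j, D α j b x = θ * P j)
    (h0 : ∃ α j b x, f x ∈ C.U α ∧ x ∈ L.U b ∧ D α j b x ≠ 0) :
    ∃ J : Idl p Y.X, Dense J.Zᶜ ∧ ∀ α, ∀ y ∈ C.U α, ∃ (γ : J.Γ) (k : ℕ)
      (e : Fin (C.k α) × Fin k ≃ Fin (J.k γ)), y ∈ J.U γ ∧ ∀ x b, f x ∈ J.U γ → x ∈ L.U b →
        ∀ j j' i, D α j b x * J.g γ (e (j', i)) (f x) = D α j' b x * J.g γ (e (j, i)) (f x) := by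
  have o : ∀ x : V.X, x ∈ off (Empty.elim : Empty → Set V.X) := fun _ l => l.elim
  obtain ⟨V₁, u, B, T, ς, Z₁, hu, -, -, hZ₁, hς, hT⟩ := hB n p V Y f C L Empty Empty.elim
    (fun _ => 0) D hV hf.hol hL (Nt.snc_empty V _)
    (fun α j => ⟨fun a x k1 k2 _ => (hD α j).hol x k1 a k2,
      fun a b x k1 k2 k3 _ => (hD α j).chg x k1 a b k2 k3, fun a x k1 k2 =>
        bdP_of_cont continuousAt_id (fun l => l.elim) ((hD α j).hol x k1 a k2).cont⟩)
    (fun α β y k1 k2 => (hc α β y k1 k2).imp fun _ k => ⟨k.1, k.2.mono fun _ c x _ => c x trivial⟩)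
    (let ⟨α, j, b, x, k1, k2, k3⟩ := h0; ⟨α, j, b, x, k1, k2, o x, k3⟩)
  have := hu.conn
  have hf₁ := hf.modif hu
  obtain ⟨Q, hQ, hs⟩ := gen_sbm hN hf₁.hol
  obtain ⟨Q', hQ', hq⟩ := hF n p V₁ Y _ _ hf₁.hol (hZ₁.union (hu.pre_thin hZ))
  obtain ⟨S', ρ, hS', -, h⟩ := hG n p V₁ Y _ (zp T.H (-1)) Q hf.connY hf₁.hol (lb_zp T.lb _) hQ
    fun y hy x e e' he' => by
      subst e
      exact (sbm_iff_ind (hf₁.hol.at x) he').1 (hs x hy)
  choose U k τ hU hy hτ hg hsp using h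
  choose c hc using T.lb.cover
  have e : ∀ α y j i x h, f (u x) ∈ C.U α ∩ U y → x ∈ T.H.U h →
      T.φ α j (c x) x * τ y i (c x) x = T.φ α j h x * τ y i h x := fun α y j i x h k1 k2 => by
    rw [T.chg α j _ h x k1.1 (hc x) k2, (hτ y i).chg x k1.2 _ h (hc x) k2]
    show _ * _ * (T.H.g _ _ x ^ (-1 : ℤ) * _) = _
    have := T.lb.ne_zero _ _ x (hc x) k2
    field_simp
  choose g g1 g2 using fun α y j i => desc hf₁ hQ hs ((C.opn α).inter (hU y))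
    (a := fun x => T.φ α j (c x) x * τ y i (c x) x) fun x hx =>
      ((T.hol α j _ x hx.1 (hc x)).mul ((hτ y i).hol x hx.2 _ (hc x))).congr (by
        filter_upwards [lb_near T.lb (hc x), hf₁.hol.cont.continuousAt.eventually
          (((C.opn α).inter (hU y)).mem_nhds hx)] with z k1 k2 using (e α y j i z _ k2 k1).symm)
  have key : ∀ (γ γ' : C.ι × Y.X) y, y ∈ C.U γ.1 ∩ U γ.2 → y ∈ C.U γ'.1 ∩ U γ'.2 →
      ∃ K : ℝ, 0 < K ∧ ∀ᶠ z in 𝓝 y, ∑ i : Fin (C.k γ'.1 * k γ'.2),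
        ‖g γ'.1 γ'.2 (finProdFinEquiv.symm i).1 (finProdFinEquiv.symm i).2 z‖ ≤
        K * ∑ i : Fin (C.k γ.1 * k γ.2),
          ‖g γ.1 γ.2 (finProdFinEquiv.symm i).1 (finProdFinEquiv.symm i).2 z‖ := by
    rintro ⟨α, y₀⟩ ⟨β, y₁⟩ y a b
    obtain ⟨A, k1, k2⟩ := T.cmp α β y a.1 b.1
    choose A' k3 k4 using fun i => hg y₀ _ (hU y₁) _ (hτ y₁ i) y ⟨a.2, b.2⟩
    refine Rs.bound_of fun i => ⟨fun l z => A (finProdFinEquiv.symm i).1 (finProdFinEquiv.symm l).1 z *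
      A' (finProdFinEquiv.symm i).2 (finProdFinEquiv.symm l).2 z, fun l => (k1 _ _).mul (k3 _ _), ?_⟩
    filter_upwards [k2, k4 (finProdFinEquiv.symm i).2, ((C.opn α).inter (hU y₀)).mem_nhds a,
      ((C.opn β).inter (hU y₁)).mem_nhds b] with z c1 c2 c3 c4
    obtain ⟨x, rfl⟩ := hf₁.surj z
    have c5 := van (c2 x rfl _ (hc x))
    rw [g2 _ _ _ _ x c4, c1 x trivial rfl _ (hc x), c5, Finset.sum_mul_sum, ← Fintype.sum_prod_type',
      ← finProdFinEquiv.symm.sum_comp]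
    exact Finset.sum_congr rfl fun l _ => by rw [g2 _ _ _ _ x c3]; ring
  let J : Idl p Y.X := ⟨C.ι × Y.X, fun γ => C.U γ.1 ∩ U γ.2, fun γ => C.k γ.1 * k γ.2,
    fun γ i => g γ.1 γ.2 (finProdFinEquiv.symm i).1 (finProdFinEquiv.symm i).2,
    fun γ => (C.opn _).inter (hU _), fun y => (C.cov y).elim fun α a => ⟨(α, y), a, hy y⟩,
    fun γ i => g1 _ _ _ _, fun γ γ' y a a' => by
      obtain ⟨K, hK, r⟩ := key γ γ' y a a'
      obtain ⟨K', hK', r'⟩ := key γ' γ y a' a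
      refine ⟨K + K', by positivity, ?_⟩
      filter_upwards [r, r'] with z r q
      exact ⟨q.trans (mul_le_mul_of_nonneg_right (by linarith) (by positivity)),
        r.trans (mul_le_mul_of_nonneg_right (by linarith) (by positivity))⟩⟩
  refine ⟨J, ((hS.union hS').union hQ').dense.mono fun y a b => ?_, fun α y a =>
    ⟨(α, y), k y, finProdFinEquiv, ⟨a, hy y⟩, fun x b k1 k2 j j' i => ?_⟩⟩
  · simp only [mem_compl_iff, mem_union, not_or] at a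
    obtain ⟨α, hα⟩ := C.cov y
    obtain ⟨P, hP⟩ := h1 α y hα a.1.1
    have k1 : ∀ x h, f (u x) = y → x ∉ Z₁ ∪ u ⁻¹' Z → x ∈ T.H.U h →
        ∃ θ, ∀ j, T.φ α j h x = θ * P j := fun x h d1 d2 d3 => by
      obtain ⟨b, hb⟩ := hL.cover (u x)
      obtain ⟨θ, d4⟩ := hP _ (fun d => d2 (.inr d)) d1 b hb
      have d5 : ς (b, h) x ≠ 0 := (hς x fun d => d2 (.inl d)).2 (b, h) ⟨hb, d3⟩
      refine ⟨θ / ς (b, h) x, fun j => ?_⟩
      rw [div_mul_eq_mul_div, eq_div_iff d5, ← d4, hT α j b h x (d1 ▸ hα) hb d3 (o _), mul_comm]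
    have k2 : ∀ x h, f (u x) = y → x ∈ T.H.U h → ∀ j j',
        T.φ α j h x * P j' = T.φ α j' h x * P j := fun x h d1 d2 j j' =>
      tendsto_nhds_unique_of_frequently_eq ((T.hol α j h x (d1 ▸ hα) d2).mul (hol_const _ _)).cont
        ((T.hol α j' h x (d1 ▸ hα) d2).mul (hol_const _ _)).cont
        (((hq x (d1 ▸ a.2)).and_eventually (lb_near T.lb d2)).mono fun z d => by
          obtain ⟨θ, d3⟩ := k1 z h (d.1.1.trans d1) d.1.2 d.2
          rw [d3, d3]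
          ring)
    obtain ⟨x₀, hx₀⟩ := hf₁.surj y
    obtain ⟨x, d1, d2⟩ := (hq x₀ fun d => a.2 (hx₀ ▸ d)).exists
    have d3 := d1.trans hx₀
    obtain ⟨j₀, hj₀⟩ : ∃ j, P j ≠ 0 := by
      obtain ⟨θ, d4⟩ := k1 x _ d3 d2 (hc x)
      exact (T.nz α _ x (d3 ▸ hα) (hc x)).imp fun j d => right_ne_zero_of_mul (d4 j ▸ d)
    have k3 : ∀ x h, f (u x) = y → x ∈ T.H.U h → T.φ α j₀ h x ≠ 0 := fun x h d1 d2 d => by
      obtain ⟨j, hj⟩ := T.nz α h x (d1 ▸ hα) d2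
      exact mul_ne_zero hj hj₀ (by rw [k2 x h d1 d2, d, zero_mul])
    obtain ⟨w, hw⟩ := (hsp y y (hy y) a.1.2).1 (fun h x => (T.φ α j₀ h x)⁻¹) fun z hz =>
      ⟨fun h d => ⟨_, (T.hol α j₀ h z (hz ▸ hα :) d).inv (k3 z h hz d), .of_forall fun _ _ => rfl⟩,
        fun h h' d d' => (congrArg Inv.inv (T.chg α j₀ h h' z (hz ▸ hα :) d d')).trans
          ((mul_inv _ _).trans (congrArg (· * _) (zpow_neg_one _).symm))⟩
    have c5 := van (hw x d3 _ (hc x))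
    refine inv_ne_zero (k3 x _ d3 (hc x)) (c5.trans (Finset.sum_eq_zero fun i _ => ?_))
    have c6 := b (α, y) ⟨hα, hy y⟩ (finProdFinEquiv (j₀, i))
    simp only [J, Equiv.symm_apply_apply] at c6
    have c7 := (g2 α y j₀ i x (mem_of_eq_of_mem d3 ⟨hα, hy y⟩)).symm.trans
      ((congrArg _ d3).trans c6)
    rw [(mul_eq_zero.1 c7).resolve_left (k3 x _ d3 (hc x)), mul_zero]
  · obtain ⟨x, rfl⟩ := hu.surj x
    simp only [J, Equiv.symm_apply_apply]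
    rw [g2 _ _ _ _ x k1, g2 _ _ _ _ x k1, hT α j b _ x k1.1 k2 (hc x) (o _),
      hT α j' b _ x k1.1 k2 (hc x) (o _)]
    ring

end Vale.Agent.P281Z.Vb
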