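import Mathlib.LinearAlgebra.Matrix.NonsingularInverse
import Mathlib.LinearAlgebra.Matrix.Nondegenerate
import Mathlib.LinearAlgebra.FiniteDimensional.Lemmas
import Mathlib.Data.Complex.Basic

/-!
# P281Z, block VBF: linear algebra
-/

open scoped Matrix
open Set Function Module

noncomputable section

namespace Vale.Agent.P281Z.Vb

variable {Q : Type} {k ρ : ℕ} {Φ : Q → Fin k → ℂ}

/-- the minors -/
def dI (Φ : Q → Fin k → ℂ) (I : Fin ρ → Fin k) (q : Fin ρ → Q) : ℂ :=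
  (Matrix.of fun b a => Φ (q b) (I a)).det

variable (ρ Φ) in
/-- the rank is `ρ` -/
def Fac : Prop :=
  (∃ (θ : Q → Fin ρ → ℂ) (B : Fin ρ → Fin k → ℂ), ∀ q j, Φ q j = ∑ a, θ q a * B a j) ∧
    ∃ (I : Fin ρ → Fin k) (q : Fin ρ → Q), dI Φ I q ≠ 0

theorem exists_pts {θ : Q → Fin ρ → ℂ} (h : LinearIndependent ℂ fun a q => θ q a) :
    ∃ q : Fin ρ → Q, (Matrix.of fun b a => θ (q b) a).det ≠ 0 := by
  have h1 : Submodule.span ℂ (range θ) = ⊤ := by
    by_contra c
    obtain ⟨φ, k1, k2⟩ := Submodule.exists_le_ker_of_lt_top _ (lt_top_iff_ne_top.2 c)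
    refine k1 (LinearMap.ext fun v => ?_)
    have k3 := Fintype.linearIndependent_iff.1 h (fun a => φ fun j => if a = j then 1 else 0)
      (funext fun q => by
        have k4 : φ (θ q) = 0 := k2 (Submodule.subset_span ⟨q, rfl⟩)
        rw [φ.pi_apply_eq_sum_univ] at k4
        simpa [mul_comm] using k4)
    rw [φ.pi_apply_eq_sum_univ]
    simp [k3]
  obtain ⟨g, k1, -, k2⟩ : ∃ g : Fin ρ → Fin ρ → ℂ, (∀ i, g i ∈ range θ) ∧
      Submodule.span ℂ (range g) = Submodule.span ℂ (range θ) ∧ LinearIndependent ℂ g := by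
    have k := Submodule.exists_fun_fin_finrank_span_eq ℂ (range θ)
    rwa [show finrank ℂ (Submodule.span ℂ (range θ)) = ρ by rw [h1]; simp] at k
  choose q hq using k1
  refine ⟨q, isUnit_iff_ne_zero.1 ((Matrix.isUnit_iff_isUnit_det _).1
    (Matrix.linearIndependent_rows_iff_isUnit.1 ?_))⟩
  rwa [← funext hq] at k2

theorem fac_of (h : finrank ℂ (LinearMap.ker (LinearMap.pi fun q : Q =>
    (∑ j, Φ q j • LinearMap.proj j : (Fin k → ℂ) →ₗ[ℂ] ℂ))) + ρ = k) : Fac ρ Φ := by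
  generalize hΨ : (LinearMap.pi fun q : Q =>
    (∑ j, Φ q j • LinearMap.proj j : (Fin k → ℂ) →ₗ[ℂ] ℂ)) = Ψ at h
  have h1 : LinearMap.range Ψ = Submodule.span ℂ (range fun j q => Φ q j) := by
    rw [← Fintype.range_linearCombination, ← hΨ]
    congr 1
    ext j q
    simp [Fintype.linearCombination_apply, Pi.single_apply, ite_apply]
  have h2 := Ψ.finrank_range_add_finrank_ker
  rw [h1, finrank_fin_fun] at h2
  obtain ⟨g, k1, k2, k3⟩ : ∃ g : Fin ρ → Q → ℂ, (∀ i, g i ∈ range fun j q => Φ q j) ∧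
      Submodule.span ℂ (range g) = Submodule.span ℂ (range fun j q => Φ q j) ∧
      LinearIndependent ℂ g := by
    have := Module.Finite.span_of_finite ℂ (finite_range fun j q => Φ q j)
    have k := Submodule.exists_fun_fin_finrank_span_eq ℂ (range fun j q => Φ q j)
    rwa [show finrank ℂ (Submodule.span ℂ (range fun j q => Φ q j)) = ρ by omega] at k
  choose I hI using k1
  choose B hB using fun j => (Submodule.mem_span_range_iff_exists_fun ℂ).1
    (k2.ge (Submodule.subset_span ⟨j, rfl⟩))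
  refine ⟨⟨fun q a => g a q, fun a j => B j a, fun q j => ?_⟩, I, ?_⟩
  · simpa [mul_comm] using (congrFun (hB j) q).symm
  · rw [← funext hI] at k3
    exact exists_pts (θ := fun q a => Φ q (I a)) k3

theorem dI_eq {θ : Q → Fin ρ → ℂ} {B : Fin ρ → Fin k → ℂ} (h : ∀ q j, Φ q j = ∑ a, θ q a * B a j)
    (I : Fin ρ → Fin k) (q : Fin ρ → Q) :
    dI Φ I q = (Matrix.of fun b a => θ (q b) a).det * (Matrix.of fun b a => B b (I a)).det := by
  rw [← Matrix.det_mul]
  exact congrArg Matrix.det (Matrix.ext fun b a => h _ _)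

theorem Fac.one (h : Fac ρ Φ) :
    ∃ P : (Fin ρ → Fin k) → ℂ, ∀ q, ∃ θ, ∀ I, dI Φ I q = θ * P I :=
  let ⟨_, _, k⟩ := h.1
  ⟨_, fun q => ⟨_, fun I => dI_eq k I q⟩⟩

theorem Fac.cramer (h : Fac ρ Φ) {I₀ : Fin ρ → Fin k} {r : (Fin ρ → Fin k) → ℂ}
    (hr : ∀ I q, dI Φ I q = r I * dI Φ I₀ q) :
    (∀ q j, Φ q j = ∑ c, r (update I₀ c j) * Φ q (I₀ c)) ∧
      ∀ v : Fin ρ → ℂ, (∀ q, ∑ c, v c * Φ q (I₀ c) = 0) → v = 0 := by
  obtain ⟨⟨θ, B, h1⟩, I, q, h2⟩ := h
  have h3 := right_ne_zero_of_mul (hr I q ▸ h2)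
  refine ⟨fun q' j => ?_, fun v hv => Matrix.eq_zero_of_mulVec_eq_zero h3 (funext fun b => by
    simpa [Matrix.mulVec, dotProduct, mul_comm] using hv (q b))⟩
  rw [dI_eq h1] at h3
  have h4 : ∀ c, Matrix.cramer (Matrix.of fun b a => B b (I₀ a)) (fun b => B b j) c =
      r (update I₀ c j) * (Matrix.of fun b a => B b (I₀ a)).det := fun c => by
    have k := hr (update I₀ c j) q
    rw [dI_eq h1, dI_eq h1, mul_left_comm] at k
    rw [← mul_left_cancel₀ (left_ne_zero_of_mul h3) k, Matrix.cramer_apply]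
    refine congrArg Matrix.det (Matrix.ext fun b a => ?_)
    by_cases e : a = c <;> simp [e]
  have h5 : ∀ a, B a j = ∑ c, r (update I₀ c j) * B a (I₀ c) := fun a => by
    have k := congrFun (Matrix.mulVec_cramer (Matrix.of fun b a => B b (I₀ a)) fun b => B b j) a
    simp only [Matrix.mulVec, dotProduct, h4, Pi.smul_apply, smul_eq_mul, Matrix.of_apply] at k
    refine mul_left_cancel₀ (right_ne_zero_of_mul h3) (k.symm.trans ?_)
    rw [Finset.mul_sum]
    exact Finset.sum_congr rfl fun c _ => by ring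
  simp only [h1 q', Finset.mul_sum]
  rw [Finset.sum_comm]
  exact Finset.sum_congr rfl fun a _ => by
    rw [h5 a, Finset.mul_sum]
    exact Finset.sum_congr rfl fun c _ => by ring

end Vale.Agent.P281Z.Vb
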