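import Vale.Agent.P281Z.Vb.Flat
import Vale.Agent.P281Z.Vb.Lin
import Vale.Agent.P281Z.Gl.Pw
import Vale.Agent.P281Z.Sc.Ord
import Vale.Agent.P281Z.Md.Tr
import Vale.Agent.P281Z.Mf.Adj

/-!
# P281Z, block VBF: local frames on a model of the base
-/

open scoped Manifold ContDiff Topology
open Set Filter Function
open Vale.Agent.P272.K Vale.Agent.P285.H281.FD
open Vale.Agent.P277Z (Hol hol_const at_chart)
open Vale.Agent.P277Z.Slc (lin Ind LEq Snc)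
open Vale.Agent.P277.HD (pull)

noncomputable section

namespace Vale.Agent.P281Z.Vb

open Ri Gt

variable {n p r K : ℕ} {M : Fb n p} {S : Set M.Y.X}

theorem pw_fibn (W : Pw M r K S) (hM : M.Ok) (hS : Thin p S) : Fibn K p fun v => (W.γ v).1 := by
  have hc : Continuous W.γ := W.hol.cont.prodMk (continuous_pi fun j => (W.holx j).cont)
  refine ⟨W.hol, fun y => (isCompact_range W.hol.cont).isClosed.closure_subset_iff.2
    (fun z hz => ?_) (hS.dense y), S, hS, fun y hy => ?_⟩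
  · obtain ⟨x, rfl⟩ := hM.fibn.surj z
    obtain ⟨v, k, -⟩ := W.bij (M.f x, fun _ => x) (fun _ => rfl) hz
    exact ⟨v, congrArg Prod.fst k⟩
  · have := hM.conn
    have := isCompact_iff_compactSpace.1
      ((isClosed_singleton (x := y)).preimage W.hol.cont).isCompact
    have h1 := (hc.comp continuous_subtype_val).isClosedEmbedding
      (f := fun v : (fun v => (W.γ v).1) ⁻¹' {y} => W.γ v.1) fun a b e => Subtype.ext
        ((W.bij _ (W.fp b.1) (fun k => hy (mem_of_eq_of_mem b.2.symm k))).unique e rfl)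
    have h2 : (fun v : (fun v => (W.γ v).1) ⁻¹' {y} => W.γ v.1) '' univ =
        {y} ×ˢ univ.pi fun _ => M.f ⁻¹' {y} := by
      refine Subset.antisymm ?_ fun q k => ?_
      · rintro _ ⟨v, -, rfl⟩
        exact ⟨v.2, fun j _ => (W.fp v.1 j).trans v.2⟩
      · obtain ⟨v, a, -⟩ := W.bij q (fun j => (k.2 j trivial).trans k.1.symm)
          fun c => hy (mem_of_eq_of_mem k.1.symm c)
        exact ⟨⟨v, (congrArg Prod.fst a).trans k.1⟩, trivial, a⟩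
    have h3 : IsConnected ((fun v : (fun v => (W.γ v).1) ⁻¹' {y} => W.γ v.1) '' univ) := h2 ▸
      isConnected_singleton.prod (isConnected_univ_pi.2 fun _ => hM.fibn.conn_all y)
    exact isConnected_iff_connectedSpace.2 (connectedSpace_iff_univ.2
      ⟨image_nonempty.1 h3.1, h1.isInducing.isPreconnected_image.1 h3.2⟩)

/-- the points of a fibre, with a frame -/
abbrev Ev (M : Fb n p) (L : Bd M.X.X) (y : M.Y.X) : Type :=
  {q : L.ι × M.X.X // q.2 ∈ L.U q.1 ∧ q.2 ∈ off M.G ∧ M.f q.2 = y}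

/-- the values of a family of sections -/
abbrev ev {L : Bd M.X.X} {k : ℕ} (s : Fin k → L.ι → M.X.X → ℂ) (y : M.Y.X) (q : Ev M L y)
    (j : Fin k) : ℂ := s j q.1.1 q.1.2

theorem frm (hR : Rs.RES) (hB : BASE) (hG : Gr.GR1) (hN : GEN) (hF : FUB) (hM : M.Ok)
    (hX : M.X.Kah) (hY : M.Y.Kah) {L : Bd M.X.X} (hL : IsLB n L) {c : M.κ → ℝ} (C : Cvr M.Y)
    {s : ∀ α, Fin (C.k α) → L.ι → M.X.X → ℂ}
    (hs : ∀ α j, SecP n n id (M.f ⁻¹' C.U α) L M.G c (s α j)) (hc : Cmp C M.f (off M.G) L s)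
    (hS : Thin p S) (hr : ∀ y ∉ S, RegAt n p M.f M.G y) {ρ : ℕ}
    (h : ∀ α, ∀ y ∈ C.U α, y ∉ S → Fac ρ (ev (s α) y)) :
    ∃ J : Idl p M.Y.X, Dense J.Zᶜ ∧ ∀ (Y₁ : Mf p) (w : Y₁.X → M.Y.X) (y₁ : Y₁.X),
      ContinuousAt w y₁ → (∀ γ, w y₁ ∈ J.U γ → ∃ (a : Fin (J.k γ) → Y₁.X → ℂ) (μ : Y₁.X → ℂ),
        (∀ i, Hol p (a i) y₁) ∧ (∃ i, a i y₁ ≠ 0) ∧ ∀ᶠ z in 𝓝 y₁, ∀ i, J.g γ i (w z) = a i z * μ z) →
      ∀ α, w y₁ ∈ C.U α → ∃ (I : Fin ρ → Fin (C.k α)) (R : Fin (C.k α) → Fin ρ → Y₁.X → ℂ),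
        (∀ j a, Hol p (R j a) y₁) ∧ ∀ᶠ z in 𝓝 y₁, w z ∉ S ∪ J.Z →
          (∀ (q : Ev M L (w z)) j, ev (s α) _ q j = ∑ a, R j a z * ev (s α) _ q (I a)) ∧
          ∀ v : Fin ρ → ℂ, (∀ q : Ev M L (w z), ∑ a, v a * ev (s α) _ q (I a) = 0) → v = 0 := by
  have := hM.conn
  have := hM.connY
  have hf := hM.fibn.hol
  have hH := Hyp.of_snc hM.snc
  have hb : ∀ x, M.f x ∉ S → Sbm n p M.f x := fun x k => (hr _ k).sbm hf hM.snc rfl
  obtain ⟨x₀, x1, x2⟩ := (((hS.pre_surj hf hM.fibn.surj).union (snc_thin_off hM.snc)).freq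
    (Classical.arbitrary _)).exists.imp fun _ k => not_or.1 k
  obtain ⟨d, hd⟩ := Nat.exists_eq_add_of_le (hb x₀ x1).le
  obtain ⟨W⟩ := exists_pw hR hd hf hX hY hS hb (fun y _ => hM.fibn.conn_all y) ρ _ rfl
  have := W.conn
  obtain ⟨D, σ, hD⟩ := hH.exists_div
  have hO : ∀ α, IsOpen (M.f ⁻¹' C.U α) := fun α => (C.opn α).preimage hf.cont
  choose t t1 t2 t3 using fun α j => (hs α j).twist (k := fun l => ⌊c l⌋) holM_id (trv_id hH) hM.snc
    hD hL (hO α) fun l => Int.lt_floor_add_one (c l)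
  obtain ⟨-, hσ⟩ := secP_div (O := univ) (i := id) holM_id hD fun l => ⌊c l⌋
  have hL' : IsLB n (L.mul (pull id (lin D fun l => ⌊c l⌋))) :=
    lb_mul hL (HolM.lb (f := id) holM_id (lb_lin (fun l => (hD l).lb) _))
  set L' := L.mul (pull id (lin D fun l => ⌊c l⌋))
  let C' : Cvr M.Y := ⟨C.ι, C.U, fun α => C.k α ^ ρ, C.opn, C.cov⟩
  let N : Bd W.V.X := lin (fun b => pull (fun v => (W.γ v).2 b) L') fun _ => 1
  have hN' : IsLB _ N := lb_lin (fun b => (W.holx b).lb hL') _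
  let E : ∀ α, Fin (C'.k α) → N.ι → W.V.X → ℂ := fun α i fr v =>
    (Matrix.of fun b a => t α (finFunctionFinEquiv.symm i a) (fr b) ((W.γ v).2 b)).det
  have m : ∀ {α v}, (W.γ v).1 ∈ C.U α → ∀ b, (W.γ v).2 b ∈ M.f ⁻¹' C.U α := fun k b =>
    (mem_of_eq_of_mem (W.fp _ b) k : M.f _ ∈ C.U _)
  have e : ∀ α v fr, (W.γ v).1 ∈ C.U α → v ∈ N.U fr → ∀ y (q : Fin ρ → Ev M L y),
      (∀ b, (q b).1 = ((fr b).1, (W.γ v).2 b)) → ∃ θ ≠ 0, ∀ i, E α i fr v =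
        θ * dI (ev (s α) y) (finFunctionFinEquiv.symm i) q := fun α v fr k1 k2 y q k3 => by
    have k4 : ∀ b, (W.γ v).2 b ∈ off M.G := fun b =>
      mem_of_eq_of_mem (congrArg Prod.snd (k3 b)).symm (q b).2.2.1
    refine ⟨_, (Finset.prod_ne_zero_iff (s := Finset.univ)).2 fun b _ =>
      hσ _ (k4 b) (fr b).2 (k2 b).2, fun i => ?_⟩
    rw [dI, ← Matrix.det_mul_column]
    refine congrArg Matrix.det (Matrix.ext fun b a => ?_)
    simp only [Matrix.of_apply, ev, k3]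
    exact (t3 α _ (fr b).1 (fr b).2 _ (m k1 b) (k2 b).1 (k2 b).2 (k4 b)).trans (mul_comm _ _)
  have e' : ∀ α, ∀ y ∈ C.U α, y ∉ S → ∀ q : Fin ρ → Ev M L y, ∃ v fr, (W.γ v).1 = y ∧ v ∈ N.U fr ∧
      ∃ θ ≠ 0, ∀ i, E α i fr v = θ * dI (ev (s α) y) (finFunctionFinEquiv.symm i) q := by
    intro α y k1 k2 q
    obtain ⟨v, k3, -⟩ := W.bij (y, fun b => (q b).1.2) (fun b => (q b).2.2.2) k2
    choose j hj using fun b => (lb_lin (fun l => (hD l).lb) fun l => ⌊c l⌋).cover (q b).1.2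
    have k4 : v ∈ N.U fun b => ((q b).1.1, j b) := fun b => by
      show (W.γ v).2 b ∈ L'.U _
      rw [k3]
      exact ⟨(q b).2.1, hj b⟩
    exact ⟨v, _, congrArg Prod.fst k3, k4, e α v _ (by rwa [k3]) k4 y q fun b => by rw [k3]⟩
  obtain ⟨J, hJ, hE⟩ := flat hB hG hN hF (pw_fibn W hM hS) C' hN' (D := E)
    (fun α i => ⟨fun v k1 fr k2 => hol_det fun b a => (W.holx b).hol (t1 α _ _ _ (m k1 b) (k2 b)),
      fun v k1 fr fr' k2 k3 => by
        show _ = (∏ b, L'.g (fr b) (fr' b) ((W.γ v).2 b) ^ (1 : ℤ)) * _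
        rw [← Matrix.det_mul_column]
        exact congrArg Matrix.det (Matrix.ext fun b a =>
          (t2 α _ _ _ _ (m k1 b) (k2 b) (k3 b)).trans (congrArg (· * _) (zpow_one _).symm))⟩)
    (fun α β y k1 k2 => by
      obtain ⟨A, a1, a2⟩ := hc α β y k1 k2
      refine ⟨fun i j z => ∏ a, A (finFunctionFinEquiv.symm i a) (finFunctionFinEquiv.symm j a) z,
        fun i j => Hol.prod _ fun a _ => a1 _ _, ?_⟩
      filter_upwards [a2.eventually_nhds, eventually_all.2 fun i => eventually_all.2 fun j =>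
        (a1 i j).near, (C.opn α).mem_nhds k1, (C.opn β).mem_nhds k2] with z b1 b2 b3 b4 v _ b5 fr b6 i
      subst b5
      have b7 : ∀ b j, t β j (fr b) ((W.γ v).2 b) =
          ∑ l, A j l (W.γ v).1 * t α l (fr b) ((W.γ v).2 b) := fun b j => by
        rw [← W.fp v b] at b1 b2 ⊢
        refine (hH.eq (t1 β j _ _ (m b4 b) (b6 b)) (Hol.sum Finset.univ fun l _ =>
          (hf.hol (b2 j l)).mul (t1 α l _ _ (m b3 b) (b6 b))) ?_).self_of_nhds
        filter_upwards [hf.cont.continuousAt.eventually b1, (hO α).mem_nhds (m b3 b),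
          (hO β).mem_nhds (m b4 b), lb_near hL' (b6 b)] with x c1 c2 c3 c4 c5
        rw [show fr b = ((fr b).1, (fr b).2) from rfl, t3 β j _ _ x c3 c4.1 c4.2 c5,
          c1 x c5 rfl _ c4.1 j, Finset.sum_mul]
        exact Finset.sum_congr rfl fun l _ => by rw [t3 α l _ _ x c2 c4.1 c4.2 c5, mul_assoc]
      simp only [E, b7]
      rw [← finFunctionFinEquiv.sum_comp]
      simp only [Equiv.symm_apply_apply]
      exact Md.det_exp (fun a l => A (finFunctionFinEquiv.symm i a) l (W.γ v).1)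
        fun l b => t α l (fr b) ((W.γ v).2 b))
    hS (Thin.iUnion fun b => Thin.pre_of_ex (snc_thin_off hM.snc).an (W.holx b) (by
      obtain ⟨v, k, -⟩ := W.bij (M.f x₀, fun _ => x₀) (fun _ => rfl) x1
      exact ⟨v, by rwa [k]⟩))
    (fun α y k1 k2 => by
      obtain ⟨P, hP⟩ := (h α y k1 k2).one
      refine ⟨fun i => P (finFunctionFinEquiv.symm i), fun v k3 k4 fr k5 => ?_⟩
      let q : Fin ρ → Ev M L y := fun b => ⟨((fr b).1, (W.γ v).2 b), (k5 b).1,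
        not_not.1 fun c => k3 (mem_iUnion.2 ⟨b, c⟩), (W.fp v b).trans k4⟩
      obtain ⟨θ, -, k6⟩ := e α v fr (k4 ▸ k1 :) k5 y q fun _ => rfl
      obtain ⟨θ', k7⟩ := hP q
      exact ⟨θ * θ', fun i => by rw [k6, k7, mul_assoc]⟩)
    (by
      obtain ⟨α, k1⟩ := C.cov (M.f x₀)
      obtain ⟨I, q, k2⟩ := (h α _ k1 x1).2
      obtain ⟨v, fr, k3, k4, θ, k5, k6⟩ := e' α _ k1 x1 q
      exact ⟨α, finFunctionFinEquiv I, fr, v, (k3 ▸ k1 :), k4, by
        rw [k6, Equiv.symm_apply_apply]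
        exact mul_ne_zero k5 k2⟩)
  refine ⟨J, hJ, fun Y₁ w y₁ hw hp α k => ?_⟩
  obtain ⟨γ, k', ε, k1, k2⟩ := hE α _ k
  obtain ⟨a, μ, a1, ⟨i, a2⟩, a3⟩ := hp γ k1
  obtain ⟨⟨i₀, j₀⟩, rfl⟩ := ε.surjective i
  refine ⟨finFunctionFinEquiv.symm i₀, fun j b z => a (ε (finFunctionFinEquiv
    (update (finFunctionFinEquiv.symm i₀) b j), j₀)) z * (a (ε (i₀, j₀)) z)⁻¹,
    fun j b => (a1 _).mul ((a1 _).inv a2), ?_⟩
  filter_upwards [a3, (a1 _).ne_near a2, hw.eventually ((J.isOpen γ).mem_nhds k1),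
    hw.eventually ((C.opn α).mem_nhds k)] with z b1 b2 b3 b4 b5
  have b6 : μ z ≠ 0 := fun c => b5 (.inr ((Idl.mem_Z b3).2 fun i => by rw [b1, c, mul_zero]))
  refine (h α _ b4 fun c => b5 (.inl c)).cramer
    (r := fun I => a (ε (finFunctionFinEquiv I, j₀)) z * (a (ε (i₀, j₀)) z)⁻¹) fun I q => ?_
  obtain ⟨v, fr, c1, c2, θ, c3, c4⟩ := e' α _ b4 (fun c => b5 (.inl c)) q
  have c5 := k2 v fr (c1 ▸ b3 :) c2 (finFunctionFinEquiv I) i₀ j₀
  simp only [c1, b1, c4, Equiv.symm_apply_apply] at c5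
  field_simp at c5 ⊢
  linear_combination c5

end Vale.Agent.P281Z.Vb
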