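import Vale.Agent.P281Z.Vb.Frm
import Vale.Agent.P281Z.Ri.Pull
import Vale.Agent.P281Z.Nt.Bcv

/-!
# P281Z, block VBF: the direct image becomes a vector bundle on a model
-/

open scoped Manifold ContDiff Topology Matrix
open Set Filter Function
open Vale.Agent.P272.K Vale.Agent.P285.H281.FD
open Vale.Agent.P277Z (Hol hol_const at_chart)
open Vale.Agent.P277Z.Slc (lin Ind LEq Snc isLB_can)
open Vale.Agent.P277.HD (pull)

noncomputable section

namespace Vale.Agent.P281Z.Vb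

open Ri Gt

variable {n p ρ m : ℕ}

/-- local transition matrices between generically independent families glue -/
theorem glv {Y : Mf p} {ι : Type} {U : ι → Set Y.X} (hU : ∀ i, IsOpen (U i)) {S : Set Y.X}
    (hS : Thin p S) {Q : Y.X → Type} {σ : ι → ∀ y, Q y → Fin ρ → ℂ}
    (ind : ∀ i, ∀ y ∈ U i, y ∉ S → ∀ v : Fin ρ → ℂ, (∀ q, ∑ a, v a * σ i y q a = 0) → v = 0)
    (loc : ∀ i j, ∀ y ∈ U i, y ∈ U j → ∃ T : Y.X → Matrix (Fin ρ) (Fin ρ) ℂ,
      (∀ a b, Hol p (fun z => T z a b) y) ∧ ∀ᶠ z in 𝓝 y, z ∉ S → ∀ q, σ i z q = T z *ᵥ σ j z q) :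
    ∃ T : ι → ι → Y.X → Matrix (Fin ρ) (Fin ρ) ℂ,
      (∀ i j, ∀ y ∈ U i, y ∈ U j → ∀ a b, Hol p (fun z => T i j z a b) y) ∧
      (∀ i j, ∀ y ∈ U i, y ∈ U j → y ∉ S → ∀ q, σ i y q = T i j y *ᵥ σ j y q) ∧
      (∀ i, ∀ y ∈ U i, T i i y = 1) ∧
      ∀ i j k, ∀ y ∈ U i, y ∈ U j → y ∈ U k → T i j y * T j k y = T i k y := by
  have uq : ∀ j, ∀ y ∈ U j, ∀ A B : Y.X → Matrix (Fin ρ) (Fin ρ) ℂ,
      (∀ a b, Hol p (fun z => A z a b) y) → (∀ a b, Hol p (fun z => B z a b) y) →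
      (∀ᶠ z in 𝓝 y, z ∉ S → ∀ q, A z *ᵥ σ j z q = B z *ᵥ σ j z q) → A y = B y :=
    fun j y hy A B h1 h2 h3 => Matrix.ext fun a b =>
      tendsto_nhds_unique_of_frequently_eq (h1 a b).cont (h2 a b).cont (((hS.freq y).and_eventually
        (h3.and ((hU j).eventually_mem hy))).mono fun z k => sub_eq_zero.1 (congrFun
          (ind j z k.2.2 k.1 (fun b => A z a b - B z a b) fun q => by
            simpa only [sub_mul, Finset.sum_sub_distrib, sub_eq_zero, Matrix.mulVec, dotProduct]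
              using congrFun (k.2.1 k.1 q) a) b))
  choose! T h1 h2 using loc
  have h3 : ∀ i j, ∀ y ∈ U i, y ∈ U j → ∀ᶠ z in 𝓝 y, T i j y z = T i j z z := fun i j y a b => by
    filter_upwards [eventually_all.2 fun c => eventually_all.2 fun d => (h1 i j y a b c d).near,
      (h2 i j y a b).eventually_nhds, (hU i).mem_nhds a, (hU j).mem_nhds b] with z c1 c2 c3 c4
    exact uq j z c4 _ _ c1 (h1 i j z c3 c4) ((c2.and (h2 i j z c3 c4)).mono fun w d e q =>
      (d.1 e q).symm.trans (d.2 e q))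
  have h4 : ∀ i j, ∀ y ∈ U i, y ∈ U j → ∀ a b, Hol p (fun z => T i j z z a b) y :=
    fun i j y c d a b => (h1 i j y c d a b).congr ((h3 i j y c d).mono fun z e => by rw [e])
  have h5 : ∀ i j, ∀ y ∈ U i, y ∈ U j → y ∉ S → ∀ q, σ i y q = T i j y y *ᵥ σ j y q :=
    fun i j y c d => (h2 i j y c d).self_of_nhds
  refine ⟨fun i j y => T i j y y, h4, h5, fun i y a => uq i y a (fun z => T i i z z) (fun _ => 1)
    (h4 i i y a a) (fun _ _ => hol_const _ _) (((hU i).eventually_mem a).mono fun z c d q => by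
      rw [← h5 i i z c c d, Matrix.one_mulVec]), fun i j k y a b c =>
    uq k y c (fun z => T i j z z * T j k z z) (fun z => T i k z z) (fun d e => Hol.sum Finset.univ
      fun l _ => (h4 i j y a b d l).mul (h4 j k y b c l e)) (h4 i k y a c) ?_⟩
  filter_upwards [(hU i).mem_nhds a, (hU j).mem_nhds b, (hU k).mem_nhds c] with z c1 c2 c3 d q
  rw [← Matrix.mulVec_mulVec, ← h5 j k z c2 c3 d, ← h5 i j z c1 c2 d, ← h5 i k z c1 c3 d]

section pl

variable {V V₁ : Mf n} {u : V₁.X → V.X} {κ κ₁ : Type} [Fintype κ] [Fintype κ₁] {G : κ → Set V.X}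
  {δ : κ → ℚ} {G₁ : κ₁ → Set V₁.X} {δ₁ : κ₁ → ℚ} {O : Set V.X} {c : κ → ℝ}
  {s : Chart n V.X → V.X → ℂ}

/-- the pull back of a pluricanonical form -/
def pl (u : V₁.X → V.X) (m : ℕ) (s : Chart n V.X → V.X → ℂ) (e : Chart n V₁.X) (x : V₁.X) : ℂ :=
  (dfM u e (chartAt (Cm n) (u x)) x).det ^ m * s (chartAt (Cm n) (u x)) (u x)

theorem pl_eq (hu : HolM n n u) (h : SecP n n id O ((Bd.can n V.X).pow m) G c s) {x : V₁.X}
    (h1 : u x ∈ O) (h2 : u x ∈ off G) {e₁ : Chart n V₁.X} {e : Chart n V.X} (he₁ : At e₁ x)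
    (he : At e (u x)) : pl u m s e₁ x = (dfM u e₁ e x).det ^ m * s e (u x) := by
  rw [pl, h.chg _ e _ h1 (at_chart _) he h2, dfM_chg' (hu.at x) he₁ (at_chart _) he, Matrix.det_mul]
  show _ * ((jacM _ _ _).det ^ m * _) = _
  ring

theorem sec_pl (hu : HolM n n u) (hG : Snc n G) (hG₁ : Snc n G₁) (hδ : ∀ l, 0 ≤ δ l ∧ δ l ≤ 1)
    (hL : LogM n u G δ G₁ δ₁) (hO : IsOpen O)
    (h : SecP n n id O ((Bd.can n V.X).pow m) G (fun l => m * δ l) s) :
    SecP n n id (u ⁻¹' O) ((Bd.can n V₁.X).pow m) G₁ (fun l => m * δ₁ l) (pl u m s) := by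
  have loc : ∀ x (e : Chart n V₁.X), u x ∈ O → At e x → ∀ᶠ y in 𝓝 x, y ∈ off G₁ → pl u m s e y =
      (dfM u e (chartAt (Cm n) (u x)) y).det ^ m * s (chartAt (Cm n) (u x)) (u y) :=
    fun x e k he => by
      filter_upwards [at_near he, hu.cont.continuousAt.eventually
        ((at_near (at_chart (n := n) (u x))).and (hO.eventually_mem k))] with y b c hy
        using pl_eq hu h c.2 (hL.sub y hy) b c.1
  refine ⟨fun a x k ha hx => ?_, fun a b x _ ha hb _ => ?_, fun a x k ha ζ' hζ' => ?_⟩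
  · refine (((hol_det fun i j => hol_dfM (hu.at x) ha (at_chart _) i j).pow m).mul
      (hu.hol (h.hol _ _ k (at_chart _) (hL.sub x hx)))).congr ?_
    filter_upwards [loc x a k ha, (snc_open_off hG₁).mem_nhds hx] with y b c using (b c).symm
  · show _ * _ = (jacM a b x).det ^ m * (_ * _)
    rw [dfM_chg (hu.at x) hb ha (at_chart _), Matrix.det_mul]
    ring
  · obtain ⟨ζ, hζ, -⟩ := hG (u x)
    obtain ⟨C, hC, h1⟩ := PullH.key hu hG hG₁ hδ hL ha (at_chart (u x)) hζ hζ'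
    obtain ⟨C', h2⟩ := h.bd _ _ k (at_chart _) ζ hζ
    refine ⟨C ^ m * C', ?_⟩
    filter_upwards [h1, hu.cont.continuousAt.eventually h2, loc x a k ha] with y b c d hy
    have c' := c (hL.sub y hy)
    rw [Md.prod_exp] at c' ⊢
    rw [d hy, norm_mul, norm_pow, mul_right_comm, ← mul_pow]
    refine (mul_le_mul_of_nonneg_right (pow_le_pow_left₀ (by positivity) (b hy) m)
      (norm_nonneg _)).trans ?_
    rw [mul_pow, mul_assoc, mul_comm _ ‖_‖]
    exact mul_le_mul_of_nonneg_left c' (by positivity)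

/-- sections along a submanifold of the open set where `u` is a local isomorphism -/
theorem sec_dn (hu : HolM n n u) (hG₁ : Snc n G₁) (hL : LogM n u G δ G₁ δ₁) {d : ℕ} {F : Mf d}
    {j : F.X → V₁.X} (hj : HolM d n j) (hi : ∀ x, Imm n n u (j x))
    (ho : ∀ x, u (j x) ∈ off G → j x ∈ off G₁) {t : Chart n V₁.X → F.X → ℂ}
    (h : SecP d n j univ (pull j ((Bd.can n V₁.X).pow m)) G₁ (fun l => m * δ₁ l) t) :
    ∃ t', SecP d n (fun x => u (j x)) univ (pull (fun x => u (j x)) ((Bd.can n V.X).pow m)) G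
      (fun l => m * δ l) t' ∧ ∀ x e₁ e, j x ∈ off G₁ → At e₁ (j x) → At e (u (j x)) →
        t e₁ x = (dfM u e₁ e (j x)).det ^ m * t' e x := by
  have h1 := hj.lb (lb_pow (isLB_can (n := n) (W := V₁.X)) m)
  have h0 := (hu.comp hj).lb (lb_pow (isLB_can (n := n) (W := V.X)) m)
  have r : LRel d (pull j ((Bd.can n V₁.X).pow m)) (pull (fun x => u (j x)) ((Bd.can n V.X).pow m))
      fun e₁ e x => (dfM u e₁ e (j x)).det ^ m :=
    ⟨fun a b x ha hb => hj.hol ((hol_det fun i j => hol_dfM (hu.at _) ha hb i j).pow m),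
      fun a b x ha hb => pow_ne_zero _ ((imm_iff_det (hu.at _) ha hb).1 (hi x)),
      fun a a' b b' x ha ha' hb hb' => by
        show _ * (jacM _ _ _).det ^ m = (jacM _ _ _).det ^ m * _
        rw [← mul_pow, ← mul_pow, mul_comm, ← Matrix.det_mul, ← dfM_chg' (hu.at _) ha hb hb',
          dfM_chg (hu.at _) ha' ha hb', Matrix.det_mul, mul_comm]⟩
  have k := r.symm.secP h0 h1 isOpen_univ ((snc_open_off hG₁).preimage hj.cont) h
  refine ⟨_, ⟨fun a x _ ha hx => k.hol a x trivial ha (ho x hx),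
    fun a b x _ ha hb hx => k.chg a b x trivial ha hb (ho x hx), fun a x _ ha ζ hζ => ?_⟩,
    fun x e₁ e a b c => ?_⟩
  · obtain ⟨ξ, hξ, -⟩ := hG₁ (j x)
    obtain ⟨C, c1, c2⟩ := hL.iso _ (hi x) ζ ξ hζ hξ
    obtain ⟨C', c3⟩ := k.bd a x trivial ha ξ hξ
    refine ⟨C ^ m * C', ?_⟩
    filter_upwards [hj.cont.continuousAt.eventually (eventually_inf_principal.1 c2), c3]
      with z b1 b2 hz
    have b3 := b2 (ho z hz)
    rw [Md.prod_exp] at b3 ⊢
    refine (mul_le_mul_of_nonneg_left (pow_le_pow_left₀ (by positivity) (b1 (ho z hz)).1 m)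
      (norm_nonneg _)).trans ?_
    rw [mul_pow, mul_left_comm]
    exact mul_le_mul_of_nonneg_left b3 (by positivity)
  · rw [r.symm.map_eq h0 h1 (fun _ _ k k' => h.chg _ _ x trivial k k' a) c b,
      mul_inv_cancel_left₀ (r.ne e₁ e x b c)]

end pl

/-- **VBF** -/
theorem vbf_of (hR : Rs.RES) (hL : Nt.RESL) (hB : BASE) (hG : Gr.GR1) (hG' : GR) (hN : GEN)
    (hF : FUB) : VBF := by
  intro n p m M hM
  have hf := hM.ok.fibn.hol
  have hK := lb_pow (isLB_can (n := n) (W := M.X.X)) m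
  obtain ⟨S, ρ, hS, hr, h⟩ := hG' n p M.X M.Y M.f _ M.κ M.G (fun l => m * M.δ l) hM.ok.connY hf hK
    hM.ok.snc
  choose U k s hU hy hs hg hsp using h
  let C : Cvr M.Y := ⟨M.Y.X, U, k, hU, fun y => ⟨y, hy y⟩⟩
  have hc : Cmp C M.f (off M.G) _ s := fun α β y a b => by
    choose A a1 a2 using fun j => hg α _ (hU β) _ (hs β j) y ⟨a, b⟩
    exact ⟨A, a1, (eventually_all.2 a2).mono fun z c x d e b' f j => c j x d e b' f⟩
  obtain ⟨J, hJ, hE⟩ := frm hR hB hG hN hF hM.ok hM.kahX hM.kahY hK C hs hc hS hr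
    fun α y a b => fac_of (hsp α y a b).2
  obtain ⟨R, X₁, f₁, κ₁, _, G₁, δ₁, u, h1, h2, hu, -, ho⟩ :=
    Nt.bcv_idl hL hM (Nt.snc_empty M.Y (Empty.elim : Empty → _)) J hJ
  have hw := R.md
  have hf₁ : HolM n p f₁ := h1.ok.fibn.hol
  have cm : ∀ x, M.f (u x) = R.w (f₁ x) := h2.sq.comm
  have := h1.ok.conn
  obtain ⟨Q, hQ, hq⟩ := hN n p X₁ R.V₁ f₁ κ₁ G₁ hf₁ h1.ok.snc
  have hT := hw.pre_thin (hS.union hw.thin)
  choose I A a1 a2 using fun y => hE R.V₁ R.w y hw.hol.cont.continuousAt (fun γ k =>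
    let ⟨ζ, c, _⟩ := R.snc y
    let ⟨a, b⟩ := R.prin y γ k ζ c
    ⟨a, _, b⟩) (R.w y) (hy _)
  choose O o1 o2 o3 using fun y => eventually_nhds_iff.1 (((eventually_all.2 fun j =>
    eventually_all.2 fun a => (a1 y j a).near).and (a2 y)).and
      (hw.hol.cont.continuousAt.eventually ((hU _).mem_nhds (hy (R.w y)))))
  obtain ⟨T, t1, t2, t3, t4⟩ := glv o2 hT (σ := fun i y q a => ev (s (R.w i)) (R.w y) q (I i a))
    (fun i y a b => ((o1 i y a).1.2 b).2) fun i j y a b => by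
      obtain ⟨B, b1, b2⟩ := hc (R.w j) (R.w i) _ (o1 j y b).2 (o1 i y a).2
      refine ⟨fun z => Matrix.of fun c d => ∑ l, B (I i c) l (R.w z) * A j l d z, fun c d =>
        Hol.sum Finset.univ fun l _ => (hw.hol.hol (b1 _ l)).mul ((o1 j y b).1.1 l d), ?_⟩
      filter_upwards [hw.hol.cont.continuousAt.eventually b2, (o2 j).mem_nhds b] with z c1 c2 c3 q
      funext c
      refine (c1 _ q.2.2.1 q.2.2.2 _ q.2.1 _).trans ?_
      simp only [Matrix.mulVec, dotProduct, Matrix.of_apply, Finset.sum_mul]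
      rw [Finset.sum_comm]
      refine Finset.sum_congr rfl fun l _ => ?_
      rw [show s (R.w j) l q.1.1 q.1.2 = _ from ((o1 j z c2).1.2 c3).1 q l, Finset.mul_sum]
      exact Finset.sum_congr rfl fun d _ => (mul_assoc _ _ _).symm
  have mem : ∀ {i x}, f₁ x ∈ O i → u x ∈ M.f ⁻¹' U (R.w i) := fun k =>
    (mem_of_eq_of_mem (cm _) (o1 _ _ k).2 : M.f _ ∈ U _)
  have sec : ∀ i a, SecP n n id (f₁ ⁻¹' O i) ((Bd.can n X₁.X).pow m) G₁ (fun l => m * δ₁ l)
      (pl u m (s (R.w i) (I i a))) := fun i a => (sec_pl hu.hol hM.ok.snc h1.ok.snc hM.ok.bdry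
    h2.sq.log ((hU _).preimage hf.cont) (hs _ _)).res fun x k => mem k
  have up : ∀ y, R.w y ∉ J.Z → ∀ x, M.f x = R.w y → ∃ x₁, u x₁ = x ∧ f₁ x₁ = y := fun y a x b =>
    (hu.surj x).imp fun x₁ c => ⟨c, hw.inj a (by rw [← cm, c, b])⟩
  refine ⟨_, u, R.w, _, ρ, h1, h2, ⟨⟨⟨_, O, T, o2, fun y => ⟨y, o3 y⟩, t1, t3, t4⟩,
    fun i a => pl u m (s (R.w i) (I i a)), _, hT.union hQ, fun y a => hq y fun b => a (.inr b),
    fun y _ => h1.ok.fibn.conn_all y, sec, fun i j e x a b c d => funext fun l => ?_,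
    fun i y a b v hv => ((o1 i y a).1.2 fun c => b (.inl c)).2 v fun q => ?_,
    fun i y a b d F j hj t ht => ?_⟩⟩⟩
  · refine tendsto_nhds_unique_of_frequently_eq ((sec i l).hol e x a c d).cont (Hol.sum Finset.univ
      fun l' _ => (hf₁.hol (t1 i j _ a b l l')).mul ((sec j l').hol e x b c d)).cont ?_
    refine (((hT.pre_surj hf₁ h1.ok.fibn.surj).freq x).and_eventually
      ((hf₁.cont.continuousAt.eventually (((o2 i).eventually_mem a).and ((o2 j).eventually_mem b))).and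
        ((snc_open_off h1.ok.snc).eventually_mem d))).mono fun z c => ?_
    have k := congrFun (t2 i j _ c.2.1.1 c.2.1.2 c.1
      ⟨(chartAt (Cm n) (u z), u z), at_chart _, ((ho z).1 c.2.2).1, cm z⟩) l
    simp only [Matrix.mulVec, dotProduct, ev] at k
    simp only [pl, k, Finset.mul_sum, mul_left_comm]
  · have b' : R.w y ∉ J.Z := fun c => b (.inl (.inr c))
    obtain ⟨⟨e, x⟩, q1, q2, q3⟩ := q
    obtain ⟨x, rfl, rfl⟩ := up y b' x q3
    have k := hv _ x rfl (at_chart x) ((ho x).2 ⟨q2, (cm x).symm ▸ b'⟩)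
    simp only [pl_eq hu.hol (hs _ _) (mem a) q2 (at_chart x) q1, mul_left_comm (v _),
      ← Finset.mul_sum] at k
    exact (mul_eq_zero.1 k).resolve_left (pow_ne_zero _ ((imm_iff_det (hu.hol.at x) (at_chart x)
      q1).1 ((h2.imm _ b').2 x rfl)))
  · have b' : R.w y ∉ J.Z := fun c => b (.inl (.inr c))
    have e : ∀ x, M.f (u (j x)) = R.w y := fun x => (cm _).trans (congrArg _ (hj.fib x))
    have im : ∀ x, Imm n n u (j x) := fun x => (h2.imm y b').2 _ (hj.fib x)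
    obtain ⟨t', c1, c2⟩ := sec_dn hu.hol h1.ok.snc h2.sq.log hj.hol im
      (fun x c => (ho _).2 ⟨c, e x ▸ b'⟩) ht
    obtain ⟨w, c3⟩ := (hsp _ _ (o1 i y a).2 fun c => b (.inl (.inl c))).1 d F (fun x => u (j x))
      ⟨hu.hol.comp hj.hol, fun x x' c => hj.inj (hu.inj (x := j x') (e x' ▸ b' :) c),
        fun x => Imm.comp (hu.hol.at _) (hj.hol.at x) (im x) (hj.imm x),
        Subset.antisymm (range_subset_iff.2 e) fun x c => by
          obtain ⟨x₁, c1, c2⟩ := up y b' x c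
          exact (hj.ex (y := x₁) c2).imp fun z c3 => (congrArg u c3).trans c1⟩ t' c1
    refine ⟨fun c => ∑ l, w l * A i l c y, fun x e₁ c4 c5 => ?_⟩
    have c6 := ((ho _).1 c4).1
    have c7 := ((o1 i y a).1.2 fun c => b (.inl c)).1
      ⟨(chartAt (Cm n) (u (j x)), u (j x)), at_chart _, c6, e x⟩
    simp only [ev] at c7
    rw [c2 x e₁ _ c4 c5 (at_chart _), c3 x c6 _ (at_chart _)]
    simp only [pl, Finset.mul_sum, Finset.sum_mul]
    rw [Finset.sum_comm]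
    refine Finset.sum_congr rfl fun l _ => ?_
    rw [c7 l, Finset.mul_sum, Finset.mul_sum]
    exact Finset.sum_congr rfl fun c _ => by ring

end Vale.Agent.P281Z.Vb
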